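import Vale.Agent.P057.Defs

/-! Finite differences and building blocks. -/

namespace Vale.Agent.P057

open Finset

/-- iterated forward difference -/
def D (e : ℕ) (x : ℕ → ℤ) (i : ℕ) : ℤ := (fwdDiff 1)^[e] x i

lemma D_zero (x : ℕ → ℤ) (i : ℕ) : D 0 x i = x i := rfl

lemma D_succ (e : ℕ) (x : ℕ → ℤ) (i : ℕ) : D (e + 1) x i = D e x (i + 1) - D e x i := by
  unfold D; rw [Function.iterate_succ_apply']; rfl

lemma D_two (x : ℕ → ℤ) (i : ℕ) : D 2 x i = x (i + 2) - 2 * x (i + 1) + x i := by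
  rw [D_succ, D_succ, D_succ, D_zero, D_zero, D_zero]; ring

lemma D_dvd {m : ℤ} {u v : ℕ → ℤ} (h : ∀ i, m ∣ u i - v i) (e : ℕ) :
    ∀ i, m ∣ D e u i - D e v i := by
  induction e with
  | zero => exact h
  | succ e ih =>
    intro i
    have := (ih (i + 1)).sub (ih i)
    rwa [D_succ, D_succ, sub_sub_sub_comm]

lemma D_add_const (e : ℕ) (x : ℕ → ℤ) (c : ℤ) :
    ∀ i, D (e + 1) (fun i => x i + c) i = D (e + 1) x i := by
  induction e with
  | zero => intro i; simp [D_succ, D_zero]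
  | succ e ih => intro i; rw [D_succ, ih, ih, ← D_succ]

lemma D_sum {ι : Type*} (s : Finset ι) (y : ι → ℕ → ℤ) (e : ℕ) :
    ∀ i, D e (fun i => ∑ j ∈ s, y j i) i = ∑ j ∈ s, D e (y j) i := by
  induction e with
  | zero => intro i; rfl
  | succ e ih => intro i; simp only [D_succ, ih, sum_sub_distrib]

lemma D_mul (x y : ℕ → ℤ) (n : ℕ) : ∀ i, D n (fun i => x i * y i) i =
    ∑ p ∈ antidiagonal n, (n.choose p.1 : ℤ) * (D p.1 x i * D p.2 y (i + p.1)) := by
  induction n with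
  | zero => intro i; simp [D_zero]
  | succ n ih =>
    intro i
    rw [D_succ, ih, ih, sum_antidiagonal_choose_succ_mul
      (fun a b => D a x i * D b y (i + a)), ← sum_sub_distrib, ← sum_add_distrib]
    refine sum_congr rfl fun p hp => ?_
    rw [← Nat.choose_symm_of_eq_add (mem_antidiagonal.1 hp).symm, D_succ, D_succ,
      add_right_comm i 1, ← add_assoc]
    ring

/-- the `e`-th differences vanish on the first `k` terms -/
def Z (e k : ℕ) (x : ℕ → ℤ) : Prop := ∀ i, i + e < k → D e x i = 0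

lemma Z.mono {e e' k : ℕ} {x : ℕ → ℤ} (h : Z e k x) (he : e ≤ e') : Z e' k x := by
  induction he with
  | refl => exact h
  | step _ ih => intro i hi; rw [D_succ, ih _ (by omega), ih _ (by omega), sub_zero]

lemma Z.const {e k : ℕ} {x : ℕ → ℤ} (h : Z (e + 1) k x) :
    ∀ i, i + e < k → D e x i = D e x 0 := by
  intro i
  induction i with
  | zero => intro _; rfl
  | succ i ih =>
    intro hi
    have := h i (by omega)
    rw [D_succ, sub_eq_zero] at this
    rw [this, ih (by omega)]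

lemma Z.sq {e k : ℕ} {x : ℕ → ℤ} (h : Z (e + 1) k x) : Z (2 * e + 1) k fun i => x i * x i := by
  intro i hi
  rw [D_mul]
  refine sum_eq_zero fun p hp => ?_
  have hp' := mem_antidiagonal.1 hp
  rcases le_or_gt (e + 1) p.1 with h1 | h1
  · rw [h.mono h1 i (by omega)]; simp
  · rw [h.mono (show e + 1 ≤ p.2 by omega) _ (by omega)]; simp

lemma Z.top {e k : ℕ} {x : ℕ → ℤ} (h : Z (e + 1) k x) (hk : 2 * e < k) :
    D (2 * e) (fun i => x i * x i) 0 = ((2 * e).choose e : ℤ) * D e x 0 ^ 2 := by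
  rw [D_mul, sum_eq_single (e, e)]
  · rw [h.const (0 + e) (by omega), pow_two]
  · intro p hp hne
    have hp' := mem_antidiagonal.1 hp
    have : p.1 ≠ e := fun h1 => hne (Prod.ext h1 (by simp only; omega))
    rcases le_or_gt (e + 1) p.1 with h1 | h1
    · rw [h.mono h1 0 (by omega)]; simp
    · rw [h.mono (show e + 1 ≤ p.2 by omega) _ (by omega)]; simp
  · intro h1
    exact absurd (HasAntidiagonal.mem_antidiagonal.2 (by simp only; omega)) h1

lemma rigid {ι : Type*} (s : Finset ι) (y : ι → ℕ → ℤ) (k : ℕ)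
    (hF : Z 1 k fun i => ∑ j ∈ s, y j i * y j i) (e : ℕ) (hk : 2 * e < k)
    (h : ∀ j ∈ s, Z (e + 1) k (y j)) : ∀ j ∈ s, Z 1 k (y j) := by
  induction e with
  | zero => exact h
  | succ e ih =>
    refine ih (by omega) fun j hj i hi => ?_
    have h1 := hF.mono (show 1 ≤ 2 * (e + 1) by omega) 0 (by omega)
    rw [D_sum, sum_congr rfl fun j hj => (h j hj).top hk,
      sum_eq_zero_iff_of_nonneg fun j _ => by positivity] at h1
    have h2 := h1 j hj
    have h3 : (0 : ℤ) < ((2 * (e + 1)).choose (e + 1) : ℕ) := by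
      exact_mod_cast Nat.choose_pos (by omega)
    rw [(h j hj).const i hi]
    exact pow_eq_zero_iff (two_ne_zero) |>.1 ((mul_eq_zero.1 h2).resolve_left h3.ne')

lemma D_bd {k : ℕ} {c : ℤ} {x : ℕ → ℤ} (h : ∀ i < k, 0 ≤ x i ∧ x i ≤ c) (e : ℕ) :
    ∀ i, i + (e + 1) < k → |D (e + 1) x i| ≤ 2 ^ e * c := by
  induction e with
  | zero =>
    intro i hi
    have h1 := h i (by omega)
    have h2 := h (i + 1) (by omega)
    rw [D_succ, D_zero, D_zero, abs_le]
    constructor <;> linarith [h1.1, h1.2, h2.1, h2.2]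
  | succ e ih =>
    intro i hi
    rw [D_succ]
    refine (abs_sub _ _).trans ?_
    rw [pow_succ]
    linarith [ih i (by omega), ih (i + 1) (by omega)]

/-- sequences of naturals with values in `T` whose `e`-th differences are divisible by `m` -/
def Pr (e k m : ℕ) (T : Finset ℕ) (y : ℕ → ℕ) : Prop :=
  (∀ i < k, y i ∈ T) ∧ ∀ i, i + e < k → (m : ℤ) ∣ D e (fun i => (y i : ℤ)) i

/-- a building block of density `ρ` -/
def Block (k e e' : ℕ) (ρ : ℝ) : Prop :=
  ∃ (T : ℕ → Finset ℕ) (f : ℕ → ℕ → ℕ),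
    (∀ m, Odd m → T m ⊆ range m ∧ ρ * m - 2 ≤ (T m).card ∧ ∀ y ∈ T m, f m y < 2 * m ^ 2) ∧
    ∀ (s : Finset ℕ) (m : ℕ → ℕ) (y : ℕ → ℕ → ℕ),
      (∀ j ∈ s, Odd (m j) ∧ Pr e k (m j) (T (m j)) (y j)) →
      Z e' k (fun i => ((∑ j ∈ s, f (m j) (y j i) : ℕ) : ℤ)) ∧
      ((∀ i < k, ∑ j ∈ s, f (m j) (y j i) = ∑ j ∈ s, f (m j) (y j 0)) →
        ∀ j ∈ s, ∀ i < k, y j i = y j 0)

lemma block_sq {k e : ℕ} {ρ : ℝ} (hk : 2 * e < k) (T : ℕ → Finset ℕ)
    (h1 : ∀ m, Odd m → T m ⊆ range m ∧ ρ * m - 2 ≤ (T m).card)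
    (h2 : ∀ m y, Odd m → Pr (e + 1) k m (T m) y → Z (e + 1) k fun i => (y i : ℤ)) :
    Block k (e + 1) (2 * e + 1) ρ := by
  refine ⟨T, fun _ y => y * y, fun m hm => ⟨(h1 m hm).1, (h1 m hm).2, fun y hy => ?_⟩,
    fun s m y h => ⟨fun i hi => ?_, fun hc j hj i hi => ?_⟩⟩
  · have := mem_range.1 ((h1 m hm).1 hy)
    nlinarith
  · push_cast
    rw [D_sum]
    exact sum_eq_zero fun j hj => (h2 _ _ (h j hj).1 (h j hj).2).sq i hi
  · have h3 := rigid s (fun j i => (y j i : ℤ)) k (fun i hi => by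
      rw [D_succ, D_zero, D_zero, sub_eq_zero]
      exact_mod_cast (hc (i + 1) hi).trans (hc i (by omega)).symm) e hk
      (fun j hj => h2 _ _ (h j hj).1 (h j hj).2) j hj
    have h4 : (y j i : ℤ) = y j 0 := h3.const i hi
    exact_mod_cast h4

lemma block_box {k e : ℕ} (hk : 2 * e < k) : Block k (e + 1) (2 * e + 1) (1 / 2 ^ e) := by
  refine block_sq hk (fun m => range ((m - 1) / 2 ^ e + 1)) (fun m hm => ⟨?_, ?_⟩) ?_
  · have := Nat.div_le_self (m - 1) (2 ^ e)
    have := hm.pos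
    exact range_subset_range.2 (by omega)
  · have h1 := Nat.lt_mul_div_succ (m - 1) (show 0 < 2 ^ e by positivity)
    have h2 : m ≤ 2 ^ e * ((m - 1) / 2 ^ e + 1) := by omega
    have h3 : (m : ℝ) ≤ 2 ^ e * (((m - 1) / 2 ^ e + 1 : ℕ) : ℝ) := by exact_mod_cast h2
    rw [card_range, one_div, inv_mul_eq_div]
    have := (div_le_iff₀' (show (0 : ℝ) < 2 ^ e by positivity)).2 h3
    linarith
  · intro m y hm hy i hi
    have h1 := D_bd (x := fun i => (y i : ℤ)) (c := ((m - 1) / 2 ^ e : ℕ)) (k := k)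
      (fun i hi => ⟨by positivity, by
        exact_mod_cast Nat.lt_succ_iff.1 (mem_range.1 (hy.1 i hi))⟩) e i hi
    have h2 : 2 ^ e * ((m - 1) / 2 ^ e) < m :=
      lt_of_le_of_lt (Nat.mul_div_le _ _) (by have := hm.pos; omega)
    refine Int.eq_zero_of_abs_lt_dvd (hy.2 i hi) (h1.trans_lt ?_)
    exact_mod_cast h2

/-- even numbers below `2 m / 3` together with the odd numbers `2 u + 1`, `a ≤ u < b` -/
def par (m a b : ℕ) : Finset ℕ :=
  (range ((m + 2) / 3)).image (2 * ·) ∪ (Ico a b).image (2 * · + 1)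

lemma mem_par {m a b y : ℕ} (h : y ∈ par m a b) :
    (y % 2 = 0 ∧ 3 * y < 2 * m) ∨ (y % 2 = 1 ∧ 2 * a + 1 ≤ y ∧ y < 2 * b) := by
  simp only [par, mem_union, mem_image, mem_range, mem_Ico] at h
  rcases h with ⟨u, h, rfl⟩ | ⟨u, h, rfl⟩ <;> omega

lemma card_par (m a b : ℕ) : (par m a b).card = (m + 2) / 3 + (b - a) := by
  rw [par, card_union_of_disjoint, card_image_of_injective, card_image_of_injective, card_range,
    Nat.card_Ico]
  · intro u v h; simp only at h; omega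
  · intro u v h; simp only at h; omega
  · rw [disjoint_left]
    intro y h1 h2
    simp only [mem_image] at h1 h2
    obtain ⟨u, -, rfl⟩ := h1
    obtain ⟨v, -, h⟩ := h2
    omega

lemma three {m x : ℤ} (h : m ∣ x) (h1 : -(2 * m) < x) (h2 : x < 2 * m) :
    x = -m ∨ x = 0 ∨ x = m := by
  obtain ⟨c, rfl⟩ := h
  have hm : 0 < m := by linarith
  have c1 : -2 < c := by nlinarith
  have c2 : c < 2 := by nlinarith
  interval_cases c <;> simp

lemma five {m a b c d e : ℕ} (hm : m % 2 = 1) (ha : a ∈ par m (m / 12 + 1) (m / 3))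
    (hb : b ∈ par m (m / 12 + 1) (m / 3)) (hc : c ∈ par m (m / 12 + 1) (m / 3))
    (hd : d ∈ par m (m / 12 + 1) (m / 3)) (he : e ∈ par m (m / 12 + 1) (m / 3))
    (h1 : (m : ℤ) ∣ c - 2 * b + a) (h2 : (m : ℤ) ∣ d - 2 * c + b) (h3 : (m : ℤ) ∣ e - 2 * d + c) :
    (c : ℤ) - 2 * b + a = 0 ∧ (d : ℤ) - 2 * c + b = 0 ∧ (e : ℤ) - 2 * d + c = 0 := by
  have key : ∀ y ∈ par m (m / 12 + 1) (m / 3), 3 * y < 2 * m ∧ (y % 2 = 0 ∨ m ≤ 6 * y) :=
    fun y hy => by have := mem_par hy; omega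
  obtain ⟨a1, a2⟩ := key a ha
  obtain ⟨b1, b2⟩ := key b hb
  obtain ⟨c1, c2⟩ := key c hc
  obtain ⟨d1, d2⟩ := key d hd
  obtain ⟨e1, e2⟩ := key e he
  have k1 := three h1 (by omega) (by omega)
  have k2 := three h2 (by omega) (by omega)
  have k3 := three h3 (by omega) (by omega)
  rcases k1 with k1 | k1 | k1 <;> rcases k2 with k2 | k2 | k2 <;> rcases k3 with k3 | k3 | k3 <;>
    omega

lemma block_five {k : ℕ} (hk : 5 ≤ k) : Block k 2 3 (7 / 12) := by
  refine block_sq (e := 1) (by omega) (fun m => par m (m / 12 + 1) (m / 3))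
    (fun m hm => ⟨fun y hy => ?_, ?_⟩) ?_
  · have := mem_par hy
    have := hm.pos
    rw [mem_range]; omega
  · have h1 : 7 * m ≤ 12 * (par m (m / 12 + 1) (m / 3)).card + 24 := by rw [card_par]; omega
    have h2 : (7 : ℝ) * m ≤ 12 * (par m (m / 12 + 1) (m / 3)).card + 24 := by exact_mod_cast h1
    linarith
  · intro m y hm hy i hi
    obtain ⟨j, hj, hij⟩ : ∃ j, j + 4 < k ∧ (i = j ∨ i = j + 1 ∨ i = j + 2) :=
      ⟨min i (k - 5), by omega, by omega⟩
    have h := fun i hi => D_two (fun i => (y i : ℤ)) i ▸ hy.2 i hi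
    have := five (Nat.odd_iff.1 hm) (hy.1 j (by omega)) (hy.1 (j + 1) (by omega))
      (hy.1 (j + 2) (by omega)) (hy.1 (j + 3) (by omega)) (hy.1 (j + 4) (by omega))
      (h j (by omega)) (h (j + 1) (by omega)) (h (j + 2) (by omega))
    rw [D_two]
    rcases hij with rfl | rfl | rfl
    exacts [this.1, this.2.1, this.2.2]

lemma four {m a b c d : ℕ} (hm : m % 2 = 1) (ha : a ∈ par m ((m + 8) / 18) ((5 * m) / 18))
    (hb : b ∈ par m ((m + 8) / 18) ((5 * m) / 18)) (hc : c ∈ par m ((m + 8) / 18) ((5 * m) / 18))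
    (hd : d ∈ par m ((m + 8) / 18) ((5 * m) / 18))
    (h1 : (m : ℤ) ∣ c - 2 * b + a) (h2 : (m : ℤ) ∣ d - 2 * c + b) :
    (a = b ∧ a = c ∧ a = d) ∨ (b * b + m ^ 2 * (b % 2)) + (c * c + m ^ 2 * (c % 2)) <
      (a * a + m ^ 2 * (a % 2)) + (d * d + m ^ 2 * (d % 2)) := by
  have key : ∀ y ∈ par m ((m + 8) / 18) ((5 * m) / 18),
      3 * y < 2 * m ∧ (y % 2 = 0 ∨ (m ≤ 9 * y ∧ 9 * y < 5 * m)) :=
    fun y hy => by have := mem_par hy; omega
  obtain ⟨a1, a2⟩ := key a ha
  obtain ⟨b1, b2⟩ := key b hb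
  obtain ⟨c1, c2⟩ := key c hc
  obtain ⟨d1, d2⟩ := key d hd
  have k1 := three h1 (by omega) (by omega)
  have k2 := three h2 (by omega) (by omega)
  have hcase : ((c : ℤ) - 2 * b + a = 0 ∧ (d : ℤ) - 2 * c + b = 0) ∨
      (a % 2 = 1 ∧ b % 2 = 0 ∧ c % 2 = 0 ∧ d % 2 = 1) := by
    rcases k1 with k1 | k1 | k1 <;> rcases k2 with k2 | k2 | k2 <;> omega
  rcases hcase with ⟨e1, e2⟩ | ⟨p1, p2, p3, p4⟩
  · by_cases hab : a = b
    · left; omega
    · right
      have p1 : c % 2 = a % 2 := by omega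
      have p2 : d % 2 = b % 2 := by omega
      have p : b % 2 + c % 2 = a % 2 + d % 2 := by rw [p1, p2, add_comm]
      have q : m ^ 2 * (b % 2) + m ^ 2 * (c % 2) = m ^ 2 * (a % 2) + m ^ 2 * (d % 2) := by
        rw [← mul_add, ← mul_add, p]
      have hw : (0 : ℤ) < ((b : ℤ) - a) ^ 2 := by
        have : (b : ℤ) - a ≠ 0 := by omega
        positivity
      have ec : (c : ℤ) = 2 * b - a := by omega
      have ed : (d : ℤ) = 3 * b - 2 * a := by omega
      have : (b : ℤ) * b + c * c < a * a + d * d := by rw [ec, ed]; nlinarith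
      have : b * b + c * c < a * a + d * d := by exact_mod_cast this
      omega
  · right
    rw [p1, p2, p3, p4]
    have : b < m := by omega
    have : c < m := by omega
    nlinarith

lemma block_four : Block 4 2 4 (5 / 9) := by
  refine ⟨fun m => par m ((m + 8) / 18) ((5 * m) / 18), fun m y => y * y + m ^ 2 * (y % 2),
    fun m hm => ⟨fun y hy => ?_, ?_, fun y hy => ?_⟩,
    fun s m y h => ⟨fun i hi => by omega, fun hc j hj i hi => ?_⟩⟩
  · have := mem_par hy
    have := hm.pos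
    rw [mem_range]; omega
  · have h1 : 5 * m ≤ 9 * (par m ((m + 8) / 18) ((5 * m) / 18)).card + 18 := by
      rw [card_par]; omega
    have h2 : (5 : ℝ) * m ≤ 9 * (par m ((m + 8) / 18) ((5 * m) / 18)).card + 18 := by
      exact_mod_cast h1
    linarith
  · have h1 := mem_par hy
    have h2 : y < m := by have := hm.pos; omega
    have h3 : y % 2 ≤ 1 := by omega
    nlinarith
  · have h4 := fun j hj => four (Nat.odd_iff.1 (h j hj).1) ((h j hj).2.1 0 (by omega))
      ((h j hj).2.1 1 (by omega)) ((h j hj).2.1 2 (by omega)) ((h j hj).2.1 3 (by omega))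
      (D_two (fun i => (y j i : ℤ)) 0 ▸ (h j hj).2.2 0 (by omega))
      (D_two (fun i => (y j i : ℤ)) 1 ▸ (h j hj).2.2 1 (by omega))
    rcases h4 j hj with h5 | h5
    · interval_cases i <;> omega
    · exfalso
      have h6 := sum_lt_sum (s := s)
        (f := fun j => (y j 1 * y j 1 + m j ^ 2 * (y j 1 % 2)) +
          (y j 2 * y j 2 + m j ^ 2 * (y j 2 % 2)))
        (g := fun j => (y j 0 * y j 0 + m j ^ 2 * (y j 0 % 2)) +
          (y j 3 * y j 3 + m j ^ 2 * (y j 3 % 2)))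
        (fun j hj => (h4 j hj).elim (fun e => by rw [← e.1, ← e.2.1, ← e.2.2]) le_of_lt)
        ⟨j, hj, h5⟩
      have c1 := hc 1 (by omega)
      have c2 := hc 2 (by omega)
      have c3 := hc 3 (by omega)
      simp only [sum_add_distrib] at h6 c1 c2 c3
      omega

end Vale.Agent.P057
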