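import Vale.Agent.P057.Diff

/-! The recursive construction. -/

namespace Vale.Agent.P057

open Finset Filter

/-- `A ⊆ [0, N)` contains no nonconstant polynomial progression modulo `N` -/
def Free (e k N : ℕ) (A : Finset ℕ) : Prop :=
  A ⊆ range N ∧ ∀ x, Pr e k N A x → ∀ i < k, x i = x 0

lemma Pr.mod {e k N m : ℕ} {A T : Finset ℕ} {x : ℕ → ℕ} (h : Pr e k N A x) (hm : m ∣ N)
    (hT : ∀ i < k, x i % m ∈ T) : Pr e k m T fun i => x i % m := by
  refine ⟨hT, fun i hi => ?_⟩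
  have h1 := D_dvd (m := m) (u := fun i => (x i : ℤ)) (v := fun i => ((x i % m : ℕ) : ℤ))
    (fun i => by push_cast; exact Int.dvd_self_sub_emod) e i
  have h2 := (Int.natCast_dvd_natCast.2 hm).trans (h.2 i hi)
  simpa using h2.sub h1

lemma crt_card (s : Finset ℕ) (m : ℕ → ℕ) (T : ℕ → Finset ℕ) (h0 : ∀ j ∈ s, m j ≠ 0)
    (hc : Set.Pairwise (s : Set ℕ) (Function.onFun Nat.Coprime m))
    (hT : ∀ j ∈ s, T j ⊆ range (m j)) :
    ∏ j ∈ s, (T j).card ≤ ((range (∏ j ∈ s, m j)).filter fun x => ∀ j ∈ s, x % m j ∈ T j).card := by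
  rw [← card_pi]
  refine card_le_card_of_surjOn (fun x j _ => x % m j) fun g hg => ?_
  have hg' := mem_pi.1 hg
  let a : ℕ → ℕ := fun j => if h : j ∈ s then g j h else 0
  have key : ∀ j (h : j ∈ s), (Nat.chineseRemainderOfFinset a m s h0 hc : ℕ) % m j = g j h := by
    intro j h
    have h1 : _ % m j = a j % m j := (Nat.chineseRemainderOfFinset a m s h0 hc).2 j h
    rw [h1, show a j = g j h from dif_pos h]
    exact Nat.mod_eq_of_lt (mem_range.1 (hT j h (hg' j h)))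
  refine ⟨Nat.chineseRemainderOfFinset a m s h0 hc, ?_, ?_⟩
  · exact mem_coe.2 (mem_filter.2 ⟨mem_range.2 (Nat.chineseRemainderOfFinset_lt_prod a m h0 hc),
      fun j h => by rw [key j h]; exact hg' j h⟩)
  · funext j h
    exact key j h

lemma shift_card {N : ℕ} {A : Finset ℕ} (hA : A ⊆ range N) (c : ℕ) :
    A.card ≤ ((range N).filter fun t => (c + t) % N ∈ A).card := by
  refine card_le_card_of_surjOn (fun t => (c + t) % N) fun a ha => ?_
  have h1 := mem_range.1 (hA ha)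
  have h2 := Nat.mod_lt c (show 0 < N by omega)
  have h3 : (c + (a + (N - c % N)) % N) % N = a := by
    rw [Nat.add_mod_mod, ← Nat.mod_add_mod, show c % N + (a + (N - c % N)) = a + N by omega,
      Nat.add_mod_right, Nat.mod_eq_of_lt h1]
  exact ⟨(a + (N - c % N)) % N, mem_coe.2 (mem_filter.2
    ⟨mem_range.2 (Nat.mod_lt _ (by omega)), by rw [h3]; exact ha⟩), h3⟩

lemma shift_avg {N : ℕ} (hN : 0 < N) {A : Finset ℕ} (hA : A ⊆ range N) (B : Finset ℕ)
    (F : ℕ → ℕ) : ∃ t, B.card * A.card ≤ (B.filter fun x => (F x + t) % N ∈ A).card * N := by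
  have h1 : ∑ _t ∈ range N, B.card * A.card ≤
      ∑ t ∈ range N, (B.filter fun x => (F x + t) % N ∈ A).card * N := by
    rw [sum_const, card_range, smul_eq_mul, mul_comm N, ← sum_mul]
    refine Nat.mul_le_mul_right _ ?_
    simp only [card_filter]
    rw [sum_comm, ← smul_eq_mul, ← sum_const]
    refine sum_le_sum fun x _ => ?_
    rw [← card_filter]
    exact shift_card hA _
  obtain ⟨t, -, ht⟩ := exists_le_of_sum_le (nonempty_range_iff.2 hN.ne') h1
  exact ⟨t, ht⟩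

lemma comb {k e e' : ℕ} {ρ : ℝ} (hB : Block k e (e' + 1) ρ) : ∃ T : ℕ → Finset ℕ,
    (∀ m, Odd m → ρ * m - 2 ≤ (T m).card) ∧ ∀ (s : Finset ℕ) (m : ℕ → ℕ) (N' : ℕ) (A' : Finset ℕ),
      (∀ j ∈ s, Odd (m j)) → Set.Pairwise (s : Set ℕ) (Function.onFun Nat.Coprime m) →
      Free (e' + 1) k N' A' → 0 < N' → ∑ j ∈ s, 2 * m j ^ 2 ≤ N' →
      ∃ A, Free e k (∏ j ∈ s, m j) A ∧ (∏ j ∈ s, (T (m j)).card) * A'.card ≤ A.card * N' := by
  obtain ⟨T, f, h1, h2⟩ := hB
  refine ⟨T, fun m hm => (h1 m hm).2.1, fun s m N' A' ho hc hA hN hs => ?_⟩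
  obtain ⟨t, ht⟩ := shift_avg hN hA.1
    ((range (∏ j ∈ s, m j)).filter fun x => ∀ j ∈ s, x % m j ∈ T (m j))
    fun x => ∑ j ∈ s, f (m j) (x % m j)
  refine ⟨_, ⟨(filter_subset _ _).trans (filter_subset _ _), fun x hx => ?_⟩,
    (Nat.mul_le_mul_right _ (crt_card s m (fun j => T (m j)) (fun j hj => (ho j hj).pos.ne') hc
      fun j hj => (h1 _ (ho j hj)).1)).trans ht⟩
  have hx1 := fun i hi => mem_filter.1 (hx.1 i hi)
  have hx2 := fun i hi => mem_filter.1 (hx1 i hi).1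
  obtain ⟨z1, z2⟩ := h2 s m (fun j i => x i % m j) fun j hj =>
    ⟨ho j hj, hx.mod (dvd_prod_of_mem m hj) fun i hi => (hx2 i hi).2 j hj⟩
  have p1 : Pr (e' + 1) k N' (range (N' + N' + t)) fun i => ∑ j ∈ s, f (m j) (x i % m j) + t := by
    refine ⟨fun i hi => ?_, fun i hi => ?_⟩
    · have : ∑ j ∈ s, f (m j) (x i % m j) ≤ ∑ j ∈ s, 2 * m j ^ 2 :=
        sum_le_sum fun j hj => ((h1 _ (ho j hj)).2.2 _ ((hx2 i hi).2 j hj)).le
      rw [mem_range]; dsimp only; omega
    · simp only [Nat.cast_add]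
      rw [D_add_const, z1 i hi]
      exact dvd_zero _
  have p2 := hA.2 _ (p1.mod dvd_rfl fun i hi => (hx1 i hi).2)
  have lt : ∀ i < k, ∑ j ∈ s, f (m j) (x i % m j) < N' := fun i hi => by
    rcases s.eq_empty_or_nonempty with rfl | hne
    · simpa using hN
    · exact (sum_lt_sum_of_nonempty hne fun j hj =>
        (h1 _ (ho j hj)).2.2 _ ((hx2 i hi).2 j hj)).trans_le hs
  have p3 := z2 fun i hi => Nat.ModEq.eq_of_lt_of_lt
    (Nat.ModEq.add_right_cancel' t (p2 i hi)) (lt i hi) (lt 0 (by omega))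
  intro i hi
  refine Nat.ModEq.eq_of_lt_of_lt (m := ∏ j ∈ s, m j) ?_ (mem_range.1 (hx2 i hi).1)
    (mem_range.1 (hx2 0 (by omega)).1)
  rw [Nat.modEq_iff_dvd, Nat.cast_prod]
  exact prod_dvd_of_coprime (fun a ha b hb hab => Nat.isCoprime_iff_coprime.2 (hc ha hb hab))
    fun j hj => Nat.modEq_iff_dvd.1 (p3 j hj i hi)

lemma primes (d : ℕ) : ∃ s : Finset ℕ, s.card = d ∧
    ∀ p ∈ s, p.Prime ∧ p ≠ 2 ∧ p ≤ (d + 5) ^ 2 := by
  have h1 : d + 1 ≤ (Nat.primesLE ((d + 5) ^ 2)).card := by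
    by_contra hc
    have h2 := Chebyshev.two_pow_le_mul_lcmUpto ((d + 5) ^ 2)
    have h3 : Nat.lcmUpto ((d + 5) ^ 2) ≤ ((d + 5) ^ 2 + 1) ^ d := by
      rw [Nat.lcmUpto_eq_prod_pow_log]
      refine (prod_le_pow_card _ _ ((d + 5) ^ 2 + 1) fun p _ =>
        (Nat.pow_log_le_self p (by positivity)).trans (Nat.le_succ _)).trans ?_
      exact Nat.pow_le_pow_right (by positivity) (by omega)
    have h4 : ∀ e : ℕ, (e + 5) ^ 2 + 1 ≤ 2 ^ (e + 5) := by
      intro e
      induction e with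
      | zero => norm_num
      | succ e ih =>
        rw [show e + 1 + 5 = e + 5 + 1 by ring, pow_succ 2 (e + 5)]
        nlinarith [Nat.zero_le (e * e)]
    have h5 : ((d + 5) ^ 2 + 1) ^ (d + 1) ≤ (2 ^ (d + 5)) ^ (d + 1) :=
      Nat.pow_le_pow_left (h4 d) _
    have h6 : (2 ^ (d + 5)) ^ (d + 1) < 2 ^ ((d + 5) ^ 2) := by
      rw [← pow_mul]
      exact Nat.pow_lt_pow_right one_lt_two (by nlinarith)
    have h7 := h2.trans (Nat.mul_le_mul_left _ h3)
    rw [← pow_succ'] at h7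
    omega
  have h8 : d ≤ ((Nat.primesLE ((d + 5) ^ 2)).erase 2).card := by
    have := pred_card_le_card_erase (s := Nat.primesLE ((d + 5) ^ 2)) (a := 2)
    omega
  obtain ⟨s, hs, hd⟩ := exists_subset_card_eq h8
  refine ⟨s, hd, fun p hp => ?_⟩
  have h9 := mem_erase.1 (hs hp)
  have h10 := Nat.mem_primesLE.1 h9.2
  exact ⟨h10.2, h9.1, h10.1⟩

lemma moduli (d : ℕ) {M : ℝ} (hM : 1 ≤ M) : ∃ (s : Finset ℕ) (m : ℕ → ℕ), s.card = d ∧
    Set.Pairwise (s : Set ℕ) (Function.onFun Nat.Coprime m) ∧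
    ∀ j ∈ s, Odd (m j) ∧ M ≤ m j ∧ m j ≤ M * (d + 5) ^ 2 := by
  obtain ⟨s, hd, hs⟩ := primes d
  have key : ∀ p : ℕ, ∃ n : ℕ, p.Prime → (p : ℝ) ^ n ≤ M ∧ M < (p : ℝ) ^ (n + 1) := fun p => by
    by_cases hp : p.Prime
    · obtain ⟨n, hn⟩ := exists_nat_pow_near hM (show (1 : ℝ) < p by exact_mod_cast hp.one_lt)
      exact ⟨n, fun _ => hn⟩
    · exact ⟨0, fun h => absurd h hp⟩
  choose n hn using key
  refine ⟨s, fun p => p ^ (n p + 1), hd, fun p hp q hq hpq =>
    Nat.coprime_pow_primes _ _ (hs p hp).1 (hs q hq).1 hpq, fun p hp => ⟨?_, ?_, ?_⟩⟩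
  · exact ((hs p hp).1.odd_of_ne_two (hs p hp).2.1).pow
  · exact_mod_cast (hn p (hs p hp).1).2.le
  · have h1 : (p : ℝ) ≤ (d + 5) ^ 2 := by exact_mod_cast (hs p hp).2.2
    push_cast
    rw [pow_succ]
    exact mul_le_mul (hn p (hs p hp).1).1 h1 (by positivity) (by linarith)

/-- the asymptotic statement at level `j` -/
def G (k e j : ℕ) (γ : ℝ) : Prop :=
  ∀ ε : ℝ, 0 < ε → ∀ᶠ s : ℝ in atTop, ∃ (N : ℕ) (A : Finset ℕ), Free e k N A ∧
    Real.exp (s ^ j / γ) ≤ N ∧ N * Real.exp (-((j + ε) * s)) ≤ A.card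

lemma G_one (k e : ℕ) : G k e 1 1 := by
  intro ε hε
  filter_upwards [eventually_ge_atTop (1 / ε)] with s hs
  have h0 : 1 ≤ ε * s := by rwa [div_le_iff₀' hε] at hs
  have hs0 : 0 < s := lt_of_lt_of_le (by positivity) hs
  have h1 : 0 < ⌈Real.exp s⌉₊ := Nat.ceil_pos.2 (Real.exp_pos s)
  refine ⟨⌈Real.exp s⌉₊, {0}, ⟨by simpa using h1, fun x hx i hi => ?_⟩, ?_, ?_⟩
  · rw [mem_singleton.1 (hx.1 i hi), mem_singleton.1 (hx.1 0 (by omega))]
  · simpa using Nat.le_ceil _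
  · have h2 := (Nat.ceil_lt_add_one (Real.exp_pos s).le).le
    have h3 := Real.add_one_le_exp s
    have h4 := Real.add_one_le_exp (ε * s)
    rw [Real.exp_neg, ← div_eq_mul_inv, card_singleton, Nat.cast_one, div_le_one (Real.exp_pos _),
      add_mul, one_mul, Real.exp_add]
    nlinarith

lemma poly_exp {b c : ℝ} (hb : 0 < b) (hc : 0 < c) :
    ∀ᶠ s : ℝ in atTop, 2 * (s / b + 6) ^ 5 ≤ Real.exp (c * s) := by
  filter_upwards [eventually_ge_atTop 1,
    eventually_ge_atTop (1440 * (1 / b + 6) ^ 5 / c ^ 6)] with s h1 h2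
  have h3 := Real.pow_div_factorial_le_exp (c * s) (by positivity) 6
  have h4 : s / b + 6 ≤ (1 / b + 6) * s := by
    rw [add_mul, one_div, inv_mul_eq_div]; linarith
  rw [div_le_iff₀ (by positivity)] at h2
  refine le_trans ?_ h3
  calc 2 * (s / b + 6) ^ 5 ≤ 2 * ((1 / b + 6) * s) ^ 5 := by gcongr
    _ = 1440 * (1 / b + 6) ^ 5 * s ^ 5 / 720 := by ring
    _ ≤ s * c ^ 6 * s ^ 5 / 720 := by gcongr
    _ = _ := by norm_num [Nat.factorial]; ring

lemma G_step {k e e' j : ℕ} {γ b : ℝ} (hj : 1 ≤ j) (hγ : 0 < γ) (hb : 0 < b)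
    (hB : Block k e (e' + 1) (Real.exp (-b))) (hG : G k (e' + 1) j γ) :
    G k e (j + 1) (2 * b * γ) := by
  intro ε hε
  obtain ⟨T, hT, hcomb⟩ := comb hB
  set η := min 1 (ε / (2 * (j + 3))) with hη
  have η0 : 0 < η := lt_min one_pos (by positivity)
  have η1 : η ≤ 1 := min_le_left _ _
  have η2 : η * (2 * (j + 3)) ≤ ε := (le_div_iff₀ (by positivity)).1 (min_le_right _ _)
  have hq : 0 < Real.exp (-b) * (1 - Real.exp (-(η * b))) :=
    mul_pos (Real.exp_pos _) (sub_pos.2 (Real.exp_lt_one_iff.2 (by have := mul_pos η0 hb; linarith)))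
  filter_upwards [(tendsto_id.const_mul_atTop (show 0 < 1 + η by linarith)).eventually (hG η η0),
    eventually_ge_atTop 1, poly_exp hb (div_pos η0 hγ), eventually_ge_atTop (4 * b / ε),
    eventually_ge_atTop (2 * γ * (2 / (Real.exp (-b) * (1 - Real.exp (-(η * b))))))]
    with s h1 s1 h2 h3 h4
  obtain ⟨N', A', hF, hN1, hN2⟩ := h1
  simp only [id] at hN1 hN2
  have sj : s ≤ s ^ j := le_self_pow₀ s1 (by omega)
  set d := ⌈s / b⌉₊ with hd
  have d1 : s / b ≤ d := Nat.le_ceil _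
  have d2 : (d : ℝ) ≤ s / b + 1 := (Nat.ceil_lt_add_one (by positivity)).le
  set M := Real.exp (s ^ j / (2 * γ)) with hM
  have M1 : 1 ≤ M := Real.one_le_exp (by positivity)
  obtain ⟨P, m, hP, hc, hm⟩ := moduli d M1
  have N0 : (0 : ℝ) < N' := (Real.exp_pos _).trans_le hN1
  have hs : ∑ p ∈ P, 2 * m p ^ 2 ≤ N' := by
    have e1 : ((∑ p ∈ P, 2 * m p ^ 2 : ℕ) : ℝ) ≤ d * (2 * (M * (d + 5) ^ 2) ^ 2) := by
      push_cast
      rw [← hP, ← nsmul_eq_mul]
      refine sum_le_card_nsmul _ _ _ fun p hp => ?_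
      rw [hP]
      gcongr
      exact (hm p hp).2.2
    have e2 : (1 + η) * s ^ j ≤ ((1 + η) * s) ^ j := by
      rw [mul_pow]
      gcongr
      exact le_self_pow₀ (by linarith) (by omega)
    have e3 : Real.exp (η / γ * s) * M ^ 2 ≤ Real.exp (((1 + η) * s) ^ j / γ) := by
      rw [hM, ← Real.exp_nat_mul, ← Real.exp_add, Real.exp_le_exp, le_div_iff₀ hγ]
      have : (η / γ * s + (2 : ℕ) * (s ^ j / (2 * γ))) * γ = η * s + s ^ j := by
        push_cast; field_simp
      rw [this]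
      nlinarith
    have e4 : (d : ℝ) * (2 * (M * (d + 5) ^ 2) ^ 2) ≤ 2 * (s / b + 6) ^ 5 * M ^ 2 := by
      calc (d : ℝ) * (2 * (M * (d + 5) ^ 2) ^ 2) = 2 * (d * (d + 5) ^ 4) * M ^ 2 := by ring
        _ ≤ 2 * ((s / b + 6) * (s / b + 6) ^ 4) * M ^ 2 := by
          have : (d : ℝ) ≤ s / b + 6 := by linarith
          have : (d : ℝ) + 5 ≤ s / b + 6 := by linarith
          gcongr
        _ = _ := by ring
    have e5 : 2 * (s / b + 6) ^ 5 * M ^ 2 ≤ Real.exp (η / γ * s) * M ^ 2 := by gcongr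
    exact_mod_cast e1.trans (e4.trans (e5.trans (e3.trans hN1)))
  obtain ⟨A, hA, hcard⟩ := hcomb P m N' A' (fun p hp => (hm p hp).1) hc hF
    (by exact_mod_cast N0) hs
  refine ⟨_, A, hA, ?_, ?_⟩
  · push_cast
    refine le_trans ?_ (prod_le_prod (f := fun _ => M) (fun _ _ => by positivity)
      fun p hp => (hm p hp).2.1)
    rw [prod_const, hP, hM, ← Real.exp_nat_mul, Real.exp_le_exp]
    calc s ^ (j + 1) / (2 * b * γ) = s / b * (s ^ j / (2 * γ)) := by field_simp; ring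
      _ ≤ _ := by gcongr
  · have k1 : ∀ p ∈ P, Real.exp (-((1 + η) * b)) * m p ≤ (T (m p)).card := fun p hp => by
      refine le_trans ?_ (hT _ (hm p hp).1)
      have a1 : s / (2 * γ) ≤ m p := by
        refine le_trans ?_ (hm p hp).2.1
        have := Real.add_one_le_exp (s ^ j / (2 * γ))
        have : s / (2 * γ) ≤ s ^ j / (2 * γ) := by gcongr
        linarith
      have a2 : 2 / (Real.exp (-b) * (1 - Real.exp (-(η * b)))) ≤ m p :=
        le_trans (by rw [le_div_iff₀' (by positivity)]; exact h4) a1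
      rw [div_le_iff₀ hq] at a2
      rw [show -((1 + η) * b) = -b + -(η * b) by ring, Real.exp_add]
      linarith
    have k2 := prod_le_prod (fun _ _ => by positivity) k1
    rw [prod_mul_distrib, prod_const, hP, ← Real.exp_nat_mul] at k2
    have k3 : ((∏ p ∈ P, (T (m p)).card : ℕ) : ℝ) * A'.card ≤ A.card * N' := by
      exact_mod_cast hcard
    push_cast at k3 ⊢
    have k4 : Real.exp (-((j + 1 + ε) * s)) ≤
        Real.exp (d * -((1 + η) * b)) * Real.exp (-((j + η) * ((1 + η) * s))) := by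
      rw [← Real.exp_add, Real.exp_le_exp]
      have b1 : d * b ≤ s + b := by
        have := mul_le_mul_of_nonneg_right d2 hb.le
        rwa [add_mul, div_mul_cancel₀ _ hb.ne', one_mul] at this
      have b2 : 4 * b ≤ s * ε := (div_le_iff₀ hε).1 h3
      have b3 : (1 + η) * (d * b) ≤ (1 + η) * (s + b) := by gcongr
      have b4 : η * η * s ≤ η * s := by nlinarith [mul_pos η0 (one_pos.trans_le s1)]
      have b5 : η * (2 * (j + 3)) * s ≤ ε * s := by gcongr
      have b6 : η * b ≤ b := by nlinarith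
      nlinarith [mul_pos η0 (one_pos.trans_le s1)]
    refine le_of_mul_le_mul_right (le_trans ?_ k3) N0
    have hp : (0 : ℝ) ≤ ∏ p ∈ P, (m p : ℝ) := prod_nonneg fun _ _ => by positivity
    calc (∏ p ∈ P, (m p : ℝ)) * Real.exp (-((j + 1 + ε) * s)) * N'
        ≤ (∏ p ∈ P, (m p : ℝ)) * (Real.exp (d * -((1 + η) * b)) *
          Real.exp (-((j + η) * ((1 + η) * s)))) * N' := by gcongr
      _ = (Real.exp (d * -((1 + η) * b)) * ∏ p ∈ P, (m p : ℝ)) *
          (N' * Real.exp (-((j + η) * ((1 + η) * s)))) := by ring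
      _ ≤ _ := mul_le_mul k2 hN2 (by positivity) (prod_nonneg fun _ _ => by positivity)

lemma cut {k N N' : ℕ} {A : Finset ℕ} (hk : 2 ≤ k) (hN : 0 < N) (hA : Free 2 k N' A) :
    A.card ≤ (N' / N + 1) * r k N := by
  classical
  refine (card_le_mul_card_image_of_maps_to (f := fun x => x / N) (t := range (N' / N + 1))
    (fun x hx => mem_range.2 (Nat.lt_succ_of_le
      (Nat.div_le_div_right (mem_range.1 (hA.1 hx)).le))) (r k N) fun q _ => ?_).trans
    (by rw [card_range, mul_comm])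
  have hi : Set.InjOn (fun x => x % N + 1) (A.filter fun x => x / N = q) := by
    intro x hx y hy h
    have h1 := (mem_filter.1 hx).2
    have h2 := (mem_filter.1 hy).2
    simp only [add_left_inj] at h
    rw [← Nat.div_add_mod x N, ← Nat.div_add_mod y N, h1, h2, h]
  rw [← card_image_of_injOn hi]
  refine le_sup (f := card) (mem_filter.2 ⟨mem_powerset.2 fun y hy => ?_, fun a d hd h => ?_⟩)
  · obtain ⟨x, -, rfl⟩ := mem_image.1 hy
    have := Nat.mod_lt x hN
    exact mem_Icc.2 (by omega)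
  · have h1 : ∀ i < k, N * q + (a + i * d) - 1 ∈ A ∧ 1 ≤ a + i * d := fun i hi => by
      obtain ⟨x, hx, e⟩ := mem_image.1 (h i hi)
      have h2 := Nat.div_add_mod x N
      rw [(mem_filter.1 hx).2] at h2
      exact ⟨by rw [← e, ← add_assoc, h2]; exact (mem_filter.1 hx).1, by omega⟩
    have h2 := hA.2 (fun i => N * q + (a + i * d) - 1) ⟨fun i hi => (h1 i hi).1, fun i hi => by
      have a0 := (h1 0 (by omega)).2
      have e : ∀ i : ℕ, ((N * q + (a + i * d) - 1 : ℕ) : ℤ) = N * q + (a + i * d) - 1 := fun i => by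
        rw [Nat.cast_sub (by omega)]; push_cast; rfl
      rw [D_two, e, e, e]
      exact ⟨0, by push_cast; ring⟩⟩ 1 (by omega)
    have a0 := (h1 0 (by omega)).2
    omega

lemma final {k n : ℕ} {γ : ℝ} (hk : 2 ≤ k) (hn : n ≠ 0) (hγ : 0 < γ) (hG : G k 2 n γ) (ε : ℝ)
    (hε : 0 < ε) : ∀ᶠ N : ℕ in atTop,
      N * Real.exp (-((n + ε) * (γ * Real.log N) ^ ((1 : ℝ) / n))) ≤ r k N := by
  have ht : Tendsto (fun N : ℕ => (γ * Real.log N) ^ ((1 : ℝ) / n)) atTop atTop :=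
    (tendsto_rpow_atTop (by positivity)).comp
      ((Real.tendsto_log_atTop.comp tendsto_natCast_atTop_atTop).const_mul_atTop hγ)
  filter_upwards [ht.eventually (hG (ε / 2) (by positivity)),
    ht.eventually (eventually_ge_atTop (2 / ε)), eventually_ge_atTop 1] with N h1 h2 h3
  obtain ⟨N', A, hA, hN1, hN2⟩ := h1
  have N0 : (0 : ℝ) < N := by exact_mod_cast h3
  have hl : 0 ≤ γ * Real.log N := mul_nonneg hγ.le (Real.log_natCast_nonneg N)
  rw [one_div, Real.rpow_inv_natCast_pow hl hn, mul_div_cancel_left₀ _ hγ.ne',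
    Real.exp_log N0] at hN1
  generalize (γ * Real.log N) ^ ((1 : ℝ) / n) = s at *
  have h4 := cut hk h3 hA
  have h5 : (N' / N + 1) * N ≤ 2 * N' := by
    have := Nat.div_mul_le_self N' N
    have : N ≤ N' := by exact_mod_cast hN1
    nlinarith
  have h6 : (A.card : ℝ) * N ≤ 2 * N' * r k N := by
    have : A.card * N ≤ 2 * N' * r k N :=
      (Nat.mul_le_mul_right _ h4).trans (by rw [mul_right_comm]; exact Nat.mul_le_mul_right _ h5)
    exact_mod_cast this
  have h7 : 2 * Real.exp (-((n + ε) * s)) ≤ Real.exp (-((n + ε / 2) * s)) := by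
    rw [show -((n + ε / 2) * s) = ε / 2 * s + -((n + ε) * s) by ring, Real.exp_add]
    have := Real.add_one_le_exp (ε / 2 * s)
    have : 2 ≤ s * ε := (div_le_iff₀ hε).1 h2
    gcongr
    linarith
  have N1 : (0 : ℝ) < N' := N0.trans_le hN1
  refine le_of_mul_le_mul_left (le_trans ?_ h6) (show (0 : ℝ) < 2 * N' by positivity)
  calc 2 * (N' : ℝ) * (N * Real.exp (-((n + ε) * s)))
      = N' * (2 * Real.exp (-((n + ε) * s))) * N := by ring
    _ ≤ N' * Real.exp (-((n + ε / 2) * s)) * N := by gcongr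
    _ ≤ _ := by gcongr

lemma exp_neg_log {x : ℝ} (hx : 0 < x) : Real.exp (-Real.log x) = 1 / x := by
  rw [Real.exp_neg, Real.exp_log hx, one_div]

lemma G_four : G 4 2 2 (Real.log (81 / 25)) := by
  have h := G_step (k := 4) (e := 2) (e' := 3) (b := Real.log (9 / 5)) le_rfl one_pos
    (Real.log_pos (by norm_num)) (by rw [exp_neg_log (by norm_num)]; norm_num [block_four])
    (G_one 4 4)
  have e : Real.log (81 / 25) = 2 * Real.log (9 / 5) * 1 := by
    rw [show (81 / 25 : ℝ) = (9 / 5) ^ 2 by norm_num, Real.log_pow]; simp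
  rwa [e]

lemma G_box (k j : ℕ) : ∀ c, 2 ^ (c + j) < k →
    G k (2 ^ c + 1) (j + 1) (2 ^ (j * c + (j + 1).choose 2) * Real.log 2 ^ j) := by
  have l2 : 0 < Real.log 2 := Real.log_pos one_lt_two
  induction j with
  | zero => intro c _; simpa using G_one k _
  | succ j ih =>
    intro c hc
    have h1 : 2 * 2 ^ c < k := by
      rw [← pow_succ']
      exact (Nat.pow_le_pow_right two_pos (by omega)).trans_lt hc
    have h := G_step (k := k) (e := 2 ^ c + 1) (e' := 2 * 2 ^ c) (j := j + 1)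
      (γ := 2 ^ (j * (c + 1) + (j + 1).choose 2) * Real.log 2 ^ j) (b := 2 ^ c * Real.log 2)
      (by omega) (by positivity) (by positivity) (by
        have e : (2 : ℝ) ^ c * Real.log 2 = Real.log (2 ^ (2 ^ c)) := by
          rw [Real.log_pow]; push_cast; rfl
        rw [e, exp_neg_log (by positivity)]
        exact block_box h1)
      (by rw [← pow_succ']; exact ih (c + 1) (by rwa [add_assoc, add_comm 1 j]))
    convert h using 1
    rw [Nat.choose_succ_succ' (j + 1) 1, Nat.choose_one_right]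
    ring

lemma G_large {n k : ℕ} (hn : 3 ≤ n) (hk : 2 ^ (n - 1) < k) :
    G k 2 n (2 ^ (n * (n - 1) / 2) * Real.log 2 ^ (n - 2) * Real.log (12 / 7)) := by
  obtain ⟨j, rfl⟩ : ∃ j, n = j + 2 := ⟨n - 2, by omega⟩
  have l2 : 0 < Real.log 2 := Real.log_pos one_lt_two
  have h5 : 5 ≤ k := by
    have : 2 ^ 2 ≤ 2 ^ (j + 2 - 1) := Nat.pow_le_pow_right two_pos (by omega)
    omega
  have h := G_step (k := k) (e := 2) (e' := 2) (b := Real.log (12 / 7)) (by omega)
    (by positivity) (Real.log_pos (by norm_num))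
    (by rw [exp_neg_log (by norm_num)]; norm_num [block_five h5])
    (G_box k j 1 (by rwa [add_comm 1 j]))
  convert h using 1
  rw [← Nat.choose_two_right, Nat.choose_succ_succ' (j + 1) 1, Nat.choose_one_right,
    Nat.add_sub_cancel]
  ring

end Vale.Agent.P057
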